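import Vale.Agent.P065.H183.JView

/-!
# P065, upper bound, final assembly: the literal Prop `StKillU` (helper65)

The whole of line U (unbounded spread) after the middle part is the Prop `StKillU`.
-/

set_option autoImplicit false

namespace Vale.Agent.P065.UB.Final

open Finset Vale.Agent.P065.UB Vale.Agent.P065.H183

/-- **KILL**: the structure `JView` is contradictory.  All the smallness conditions are as generous
as possible: `C ≤ K`, `log #Q ≤ K`, `K ^ C ≤ lam`, `lam ^ C ≤ #Q`, one constant `C`. -/
def StKillU : Prop :=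
  ∃ C : ℕ, ∀ (K lam : ℝ) (Q : Finset Pt) (W : Finset ℕ) (I : ℕ → Set ℝ) (R : ℕ → Finset Pt),
    JView K lam Q W I R → (C : ℝ) ≤ K → Real.logb 2 #Q ≤ K → K ^ C ≤ lam →
    lam ^ C ≤ #Q → False

end Vale.Agent.P065.UB.Final
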