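import Vale.Agent.P065.UB.Final.Defs
import Vale.Agent.P065.UB.View.Final
import Vale.Agent.P065.H882.KDep
import Vale.Agent.P065.U.H792.Trans

/-!
# P065, upper bound, final assembly (helper65)

`StKillU` (line U) implies `e_k(n) ≤ C n k ^ (1/3 - c)`.
-/

set_option autoImplicit false

namespace Vale.Agent.P065.UB.Final

open Finset Vale.Agent.P065.UB Vale.Agent.P065.UB.View Vale.Agent.P065.H183

open Classical in
/-- `ViewJ` without the vantage points is `JView` -/
theorem jview_of_viewJ {K lam : ℝ} {Q : Finset Pt} {W : Finset ℕ} {I : ℕ → Set ℝ}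
    {T R : ℕ → Finset Pt} (h : ViewJ K lam Q W I T R) : JView K lam Q W I R where
  two := h.two
  one := h.one
  xinj := h.xinj
  conn := h.conn
  disj := h.disj
  cardW := h.cardW
  cardW' := h.cardW'
  subR := fun w hw => (h.subR w hw).trans (h.subT w hw)
  cardR := fun w hw => by
    have h1 := h.cardT w hw
    have h2 : (#(R w) : ℝ) ≤ #(T w) := by exact_mod_cast card_le_card (h.subR w hw)
    have h3 := h.one
    nlinarith
  cardR' := h.cardR
  touch := fun x hx => by
    refine le_trans ?_ (h.touch x hx)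
    norm_cast
    apply card_le_card
    intro w hw
    rw [mem_filter] at hw ⊢
    exact ⟨hw.1, h.subR w hw.1 hw.2⟩
  join := h.joinR
  star := h.star

/-- the trivial bound -/
theorem card_Ed_le (P : Finset Pt) (k : ℕ) : #(Ed P k) ≤ #P * #P := by
  classical
  unfold Ed
  refine (card_filter_le _ _).trans ?_
  rw [card_product]

/-- **KILL implies a power saving for good sets** -/
theorem saving_of (h : StKillU) : ∃ c C : ℝ, 0 < c ∧ c ≤ 1 / 3 ∧ 0 ≤ C ∧
    ∀ (P : Finset Pt) (k : ℕ), Good P → (#(Ed P k) : ℝ) ≤ C * (#P : ℝ) ^ (4 / 3 - c) := by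
  obtain ⟨D, hD⟩ := h
  obtain ⟨C2, hC2, hV⟩ := stViewOut
  -- choice of ε and of the exponent of lam
  have hD0 : (0 : ℝ) ≤ D := Nat.cast_nonneg D
  set β : ℝ := 1 / (4 * (D + 4)) with hβ
  have hβ0 : 0 < β := by positivity
  have hβ1 : (D + 4) * β = 1 / 4 := by
    rw [hβ]
    field_simp
  have hβ2 : β ≤ 1 / 16 := by nlinarith
  set ε : ℝ := β / (4 * (D + 4) * (C2 + 1)) with hε
  have hε0 : 0 < ε := by positivity
  have hε1 : (D + 4) * (C2 * ε) ≤ β / 4 := by
    rw [hε]
    have : (D + 4) * (C2 * (β / (4 * (D + 4) * (C2 + 1)))) = C2 / (C2 + 1) * (β / 4) := by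
      field_simp
    rw [this]
    have h2 : C2 / (C2 + 1) ≤ 1 := by
      rw [div_le_one (by linarith)]
      linarith
    nlinarith
  have hCε0 : 0 < C2 * ε := by positivity
  have hCε : C2 * ε ≤ β / 16 := by nlinarith
  have hε2 : ε < 1 / C2 := by
    rw [lt_div_iff₀ hC2]
    linarith
  have hε3 : ε ≤ 1 / 3 := by
    have h1 : ε ≤ β := by
      rw [hε]
      apply div_le_self hβ0.le
      nlinarith
    linarith
  obtain ⟨n0, hn0⟩ := hV ε hε0 hε2
  obtain ⟨n1, hn1', hn1⟩ := exists_rpow_ge hCε0 (max (D : ℝ) 1)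
  have hlog : ∃ n2 : ℕ, ∀ n : ℕ, n2 ≤ n → Real.logb 2 n ≤ (n : ℝ) ^ (C2 * ε) := by
    have h1 := isLittleO_log_rpow_atTop hCε0
    have h2 := h1.def (c := Real.log 2) (Real.log_pos (by norm_num))
    have h3 := (tendsto_natCast_atTop_atTop (R := ℝ)).eventually h2
    obtain ⟨n2, hn2⟩ := Filter.eventually_atTop.1 h3
    refine ⟨max n2 1, fun n hn => ?_⟩
    have h4 := hn2 n (le_trans (le_max_left _ _) hn)
    have h5 : (1 : ℝ) ≤ n := by exact_mod_cast le_trans (le_max_right _ _) hn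
    have h6 : 0 ≤ (n : ℝ) ^ (C2 * ε) := by positivity
    rw [Real.norm_of_nonneg (Real.log_nonneg h5), Real.norm_of_nonneg h6] at h4
    rw [Real.logb, div_le_iff₀ (Real.log_pos (by norm_num))]
    linarith
  obtain ⟨n2, hn2⟩ := hlog
  -- for large n the number of edges is smaller
  have key : ∀ (P : Finset Pt) (k : ℕ), Good P → max (max n0 n1) n2 ≤ #P → 2 ≤ #P →
      (#(Ed P k) : ℝ) ≤ (#P : ℝ) ^ (4 / 3 - ε) := by
    intro P k hP hn hn'
    by_contra hcon
    rw [not_le] at hcon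
    have e0 : n0 ≤ #P := (le_max_left _ _).trans ((le_max_left _ _).trans hn)
    have e1 : n1 ≤ #P := (le_max_right _ _).trans ((le_max_left _ _).trans hn)
    have e2 : n2 ≤ #P := (le_max_right _ _).trans hn
    have hp1 : (1 : ℝ) ≤ #P := by exact_mod_cast (by omega : 1 ≤ #P)
    have hp0 : (0 : ℝ) < #P := by linarith
    set n : ℝ := (#P : ℝ) with hn_def
    have hlam1 : n ^ (C2 * ε) ≤ n ^ β :=
      Real.rpow_le_rpow_of_exponent_le hp1 (by linarith)
    have hlam2 : n ^ β ≤ n ^ (1 / 4 - C2 * ε) :=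
      Real.rpow_le_rpow_of_exponent_le hp1 (by linarith)
    obtain ⟨Q, W, I, T, R, hQP, hQ, hVJ⟩ := hn0 P k hP e0 hcon.le _ hlam1 hlam2
    refine hD _ _ Q W I R (jview_of_viewJ hVJ) ?_ ?_ ?_ ?_
    · exact (le_max_left _ _).trans (hn1 #P e1)
    · refine le_trans ?_ (hn2 #P e2)
      by_cases hq : #Q = 0
      · rw [hq]
        simp only [Nat.cast_zero, Real.logb_zero]
        exact Real.logb_nonneg (by norm_num) hp1
      · apply Real.logb_le_logb_of_le (by norm_num)
        · exact_mod_cast Nat.pos_of_ne_zero hq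
        · exact_mod_cast card_le_card hQP
    · rw [← Real.rpow_natCast, ← Real.rpow_mul hp0.le]
      apply Real.rpow_le_rpow_of_exponent_le hp1
      nlinarith
    · have h1 : (n ^ β) ^ D = n ^ (β * D) := by
        rw [← Real.rpow_natCast, ← Real.rpow_mul hp0.le]
      have h2 : n ≤ n ^ (C2 * ε + β * 2) * #Q := by
        have h3 : n ^ (C2 * ε + β * 2) = n ^ (C2 * ε) * (n ^ β) ^ 2 := by
          rw [Real.rpow_add hp0, ← Real.rpow_natCast (n ^ β), ← Real.rpow_mul hp0.le]
          norm_num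
        rw [h3]
        exact hQ
      have h4 : n ^ (1 - (C2 * ε + β * 2)) ≤ #Q := by
        rw [Real.rpow_sub hp0, Real.rpow_one, div_le_iff₀ (by positivity)]
        linarith
      rw [h1]
      refine le_trans (Real.rpow_le_rpow_of_exponent_le hp1 ?_) h4
      nlinarith
  set M : ℕ := max (max (max n0 n1) n2) 2 with hM
  refine ⟨ε, (M : ℝ) ^ 2 + 1, hε0, hε3, by positivity, fun P k hP => ?_⟩
  by_cases hc : M ≤ #P
  · have h1 := key P k hP ((le_max_left _ _).trans hc) ((le_max_right _ _).trans hc)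
    have h2 : 0 ≤ (#P : ℝ) ^ (4 / 3 - ε) := by positivity
    nlinarith [sq_nonneg (M : ℝ)]
  · rw [not_le] at hc
    by_cases hp : #P = 0
    · have h1 := card_Ed_le P k
      rw [hp] at h1
      have h2 : (#(Ed P k) : ℝ) = 0 := by
        exact_mod_cast (by omega : #(Ed P k) = 0)
      rw [h2]
      positivity
    · have h1 : (#(Ed P k) : ℝ) ≤ (#P : ℝ) * #P := by exact_mod_cast card_Ed_le P k
      have h2 : (1 : ℝ) ≤ (#P : ℝ) := by exact_mod_cast Nat.pos_of_ne_zero hp
      have h3 : (#P : ℝ) ≤ M := by exact_mod_cast hc.le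
      have h4 : (1 : ℝ) ≤ (#P : ℝ) ^ (4 / 3 - ε) := Real.one_le_rpow h2 (by linarith)
      have h5 : (#P : ℝ) * #P ≤ (M : ℝ) ^ 2 := by nlinarith
      nlinarith [sq_nonneg (M : ℝ)]

/-- **KILL implies the final theorem, in terms of the official definitions.** -/
theorem final_of (h : StKillU) : ∃ c C : ℝ, 0 < c ∧ c ≤ 1 / 3 ∧ 0 < C ∧
    (∀ n : ℕ, (hmax n : ℝ) ≤ C * (n : ℝ) ^ (4 / 3 - c)) ∧
    ∀ n k : ℕ, 1 ≤ k → k + 1 ≤ n → (emax k n : ℝ) ≤ C * (n * (k : ℝ) ^ (1 / 3 - c)) := by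
  obtain ⟨c, C, hc, hc3, hC, H⟩ := saving_of h
  have h1 := U.H792.Trans.trans c C (by linarith) hC H
  have h2 := Vale.Agent.P065.H882.kdep (c := c) (C := C) (by linarith) H
  set C' : ℝ := 9 * C * 3 ^ (4 / 3 - c) with hC'
  have hC'0 : 0 ≤ C' := by positivity
  have h3 := U.H792.Trans.trans_k c C' hc3 hC'0 (fun P k hP => by
    have := h2 P k hP
    rw [mul_assoc] at this
    exact this)
  refine ⟨c, C + (2 * C' + 2), hc, hc3, by positivity, fun n => ?_, fun n k hk hkn => ?_⟩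
  · have h4 := h1.1 n
    have h5 : 0 ≤ (n : ℝ) ^ (4 / 3 - c) := by positivity
    nlinarith
  · have h4 := h3 n k hk hkn
    have h5 : 0 ≤ (n : ℝ) * (k : ℝ) ^ (1 / 3 - c) := by positivity
    nlinarith

end Vale.Agent.P065.UB.Final
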