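import Vale.Agent.P065.UB.Final.Asm
import Vale.Agent.P065.UB.Final.Lower

/-!
# P065: the hand-in statement (lower and upper bounds) from `StKillU` (helper65)
-/

set_option autoImplicit false

namespace Vale.Agent.P065.UB.Final

open Finset Vale.Agent.P065

/-- the upper bounds, through point sets -/
theorem upper (h : StKillU) :
    ∃ c C : ℝ, 0 < c ∧ (∀ P : Finset (ℝ × ℝ), GenPos P →
        (halvingNumber P : ℝ) ≤ C * (P.card : ℝ) ^ (4 / 3 - c)) ∧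
      ∀ (P : Finset (ℝ × ℝ)) (k : ℕ), GenPos P → 1 ≤ k → 2 * k ≤ P.card →
        (kSetNumber P k : ℝ) ≤ C * P.card * (k : ℝ) ^ (1 / 3 - c) := by
  obtain ⟨c, C, hc, hc3, hC, h1, h2⟩ := final_of h
  refine ⟨c, C, hc, fun P hP => ?_, fun P k hP hk hkn => ?_⟩
  · exact le_trans (by exact_mod_cast halvingNumber_le_hmax rfl hP) (h1 P.card)
  · rw [mul_assoc]
    exact le_trans (by exact_mod_cast kSetNumber_le_emax rfl hP) (h2 P.card k hk (by omega))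

/-- **both bounds** -/
theorem bounds_of (h : StKillU) :
    (∃ c C : ℝ, 0 < c ∧ (∀ P : Finset (ℝ × ℝ), GenPos P →
        (halvingNumber P : ℝ) ≤ C * (P.card : ℝ) ^ (4 / 3 - c)) ∧
      ∀ (P : Finset (ℝ × ℝ)) (k : ℕ), GenPos P → 1 ≤ k → 2 * k ≤ P.card →
        (kSetNumber P k : ℝ) ≤ C * P.card * (k : ℝ) ^ (1 / 3 - c)) ∧
    (∃ (c : ℝ) (N : ℕ), 0 < c ∧ ∀ n : ℕ, N ≤ n → Even n →
      ∃ P : Finset (ℝ × ℝ), P.card = n ∧ GenPos P ∧
        (n : ℝ) ^ (1 + c / Real.log (Real.log n) ^ 4) ≤ halvingNumber P) ∧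
    (∃ (c : ℝ) (K : ℕ), 0 < c ∧ ∀ k n : ℕ, K ≤ k → 2 * k ≤ n →
      ∃ P : Finset (ℝ × ℝ), P.card = n ∧ GenPos P ∧
        (n : ℝ) * (k : ℝ) ^ (c / Real.log (Real.log k) ^ 4) ≤ kSetNumber P k) :=
  ⟨upper h, lower⟩

end Vale.Agent.P065.UB.Final
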