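import Vale.Agent.P065.UB.Final.HandIn
import Vale.Agent.P065.UB.DimAsm.Fin
import Vale.Agent.P065.UB.Mach.Final
import Vale.Agent.P065.H537.Extract
import Vale.Agent.P065.UB.H415.MachPre

/-!
# P065: `StKillU` is a theorem; the upper and lower bounds without hypotheses (helper65)
-/

set_option autoImplicit false

namespace Vale.Agent.P065.UB.Final

open Finset Vale.Agent.P065

/-- a `JView` with large `lam` and larger `Q` does not exist -/
theorem stKillU : StKillU :=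
  DimAsm.killU_of2 MC.stMachine (H415.machKill_of H537.stPreKill)

/-- **both bounds** -/
theorem bounds :
    (∃ c C : ℝ, 0 < c ∧ (∀ P : Finset (ℝ × ℝ), GenPos P →
        (halvingNumber P : ℝ) ≤ C * (P.card : ℝ) ^ (4 / 3 - c)) ∧
      ∀ (P : Finset (ℝ × ℝ)) (k : ℕ), GenPos P → 1 ≤ k → 2 * k ≤ P.card →
        (kSetNumber P k : ℝ) ≤ C * P.card * (k : ℝ) ^ (1 / 3 - c)) ∧
    (∃ (c : ℝ) (N : ℕ), 0 < c ∧ ∀ n : ℕ, N ≤ n → Even n →
      ∃ P : Finset (ℝ × ℝ), P.card = n ∧ GenPos P ∧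
        (n : ℝ) ^ (1 + c / Real.log (Real.log n) ^ 4) ≤ halvingNumber P) ∧
    (∃ (c : ℝ) (K : ℕ), 0 < c ∧ ∀ k n : ℕ, K ≤ k → 2 * k ≤ n →
      ∃ P : Finset (ℝ × ℝ), P.card = n ∧ GenPos P ∧
        (n : ℝ) * (k : ℝ) ^ (c / Real.log (Real.log k) ^ 4) ≤ kSetNumber P k) :=
  bounds_of stKillU

end Vale.Agent.P065.UB.Final
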